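import Vale.Agent.P096.Defs
import Vale.Agent.P096.Transfer

/-!
# Linear strong Kadison–Kastler stability near the identity for `L(Γ) ⊗ B(ℓ²)`
-/

namespace Vale.Agent.Results.P096.LocalStability

open Vale.Agent.P096

/-- For every Powers group `Γ`, among the unitary conjugates `N = u M u⋆` of
`M = L(Γ) ⊗ B(ℓ²)` with `‖u - 1‖ ≤ ε₀`, one-sided closeness `N ⊂_δ M` gives a unitary `v`
with `v M v⋆ = N` and `‖v - 1‖ ≤ C δ`. Here `M` is the algebra of operators commuting with the
right translations, on a Hilbert space with an orthonormal basis indexed by `Γ × ℕ`. The free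
group on countably many generators is a Powers group. -/
theorem result :
    (∃ ε₀ C : ℝ, 0 < ε₀ ∧ 0 < C ∧
      ∀ (Γ H : Type) [Group Γ] [NormedAddCommGroup H] [InnerProductSpace ℂ H] [CompleteSpace H]
        (b : HilbertBasis (Γ × ℕ) ℂ H), IsPowers Γ →
      ∃ M : VonNeumannAlgebra H, IsAmplifiedGroupAlgebra b M ∧ IsLocallyStable M ε₀ C) ∧
    IsPowers (FreeGroup ℕ) := by
  refine ⟨⟨1 / 10000000, 60000, by norm_num, by norm_num, ?_⟩, isPowers_freeGroup⟩
  intro Γ H _ _ _ _ b hΓ
  exact transfer hΓ b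

end Vale.Agent.Results.P096.LocalStability
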